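/-
Helper32 — S0175 project, Part II (geometry): STATEMENTS of the work packages
SH (shape calculus), G1 (pointwise inequality), CG (contact geometry), RG (regularity of the root
functions and of the contact maps), DN (apex density), CV (generic change of variables),
DI (disintegration along circles), TR (transfer to EuclideanSpace).
(INTERFACE FILE WITH PLACEHOLDER PROOFS — never import it from a landed statement file.)
Plan and proof routes: notes/S0175_plan.md, Part II.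
-/
import Crest.Agent.Helper32.GeomDefs

set_option autoImplicit false
open MeasureTheory Set Filter Topology
open scoped ENNReal ContDiff
open Crest.AnalysisR.OT

namespace Crest.Agent.Helper32.Spec

/-! ## SH : shape calculus (1-D real analysis with `Real.rpow`) -/

theorem wMin_pos (s : ℝ) (hs : 0 < s) : 0 < wMin s := by sorry
theorem wMin_lt (s : ℝ) (hs : 0 < s) : 2 * (wMin s) ^ 2 < 1 := by sorry
theorem shH_wMin (s : ℝ) (hs : 0 < s) : shH s (wMin s) = 0 := by sorry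

theorem shH_pos (s : ℝ) (hs : 0 < s) (w : ℝ) (hw : wMin s < w) (hw' : 2 * w ^ 2 < 1) :
    0 < shH s w := by sorry

theorem shL12_ge_one (s : ℝ) (hs : 0 < s) (w : ℝ) (hw : 0 < w) (hw' : 2 * w ^ 2 < 1) :
    1 ≤ shL12 s w := by sorry

theorem shL23_ge_one (s : ℝ) (hs : 0 < s) (w : ℝ) (hw : 0 < w) (hw' : 2 * w ^ 2 < 1) :
    1 ≤ shL23 s w := by sorry

theorem shG_nonneg (s : ℝ) (hs : 0 < s) (w : ℝ) (hw : 0 < w) (hw' : 2 * w ^ 2 < 1) :
    0 ≤ shG s w := by sorry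

theorem shG_le_three (s : ℝ) (hs : 0 < s) (w : ℝ) (hw : 0 < w) (hw' : 2 * w ^ 2 < 1) :
    shG s w ≤ 3 := by sorry

/-- smoothness of the shape functions on `(0, 1/√2)` -/
theorem shape_contDiffAt (s : ℝ) (hs : 0 < s) (w : ℝ) (hw : 0 < w) (hw' : 2 * w ^ 2 < 1) :
    ContDiffAt ℝ ∞ (shL23 s) w ∧ ContDiffAt ℝ ∞ (shH s) w ∧ ContDiffAt ℝ ∞ (shb s) w := by sorry

/-- the apex equation is strictly decreasing in the shape parameter -/
theorem shF_strictAnti (s : ℝ) (hs : 0 < s) (ζ e : ℝ) (hζ : 0 ≤ ζ) (he : 0 ≤ e) (w w' : ℝ)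
    (hw : 0 < w) (hww' : w < w') (hw' : 2 * w' ^ 2 < 1) : shF s w' ζ e < shF s w ζ e := by sorry

theorem shF_deriv_neg (s : ℝ) (hs : 0 < s) (ζ e : ℝ) (hζ : 0 ≤ ζ) (he : 0 ≤ e) (w : ℝ)
    (hw : 0 < w) (hw' : 2 * w ^ 2 < 1) : deriv (fun v => shF s v ζ e) w < 0 := by sorry

/-- `shb` is strictly decreasing on `[wMin s, 1/√2)`
(`shb' · w^(-q-1) = qX - (4+2q)X^(q/2) + q - 2 < 0`, `X = shP w / w² ∈ (0, 2^(s+2)]`,
`q = 2s/(s+2)`; concavity of `X^(q/2)` + the endpoint values) -/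
theorem shb_strictAnti (s : ℝ) (hs : 0 < s) (w w' : ℝ) (hw : wMin s ≤ w) (hww' : w < w')
    (hw' : 2 * w' ^ 2 < 1) : shb s w' < shb s w := by sorry

theorem shb_deriv_neg (s : ℝ) (hs : 0 < s) (w : ℝ) (hw : wMin s ≤ w) (hw' : 2 * w ^ 2 < 1) :
    deriv (shb s) w < 0 := by sorry

theorem shb_ge (s : ℝ) (hs : 0 < s) (w : ℝ) (hw : wMin s ≤ w) (hw' : 2 * w ^ 2 < 1) :
    1 / 4 ≤ shb s w := by sorry

theorem exists_goodParams (s : ℝ) (hs : 0 < s) : ∃ w2 ε : ℝ, GoodParams s w2 ε := by sorry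

/-! ## G1 : the pointwise inequality and its equality case -/

section G1
variable {k : ℕ} (s : ℝ) (hs : 0 < s) (w : ℝ) (hw : 0 < w) (hw' : 2 * w ^ 2 < 1) (x y z : MS k)
include hs hw hw'

theorem pointwise_ineq :
    ENNReal.ofReal (u1 s w x + UB s y + UB s z) ≤ tripleCostM s (x, y, z) := by sorry

theorem pointwise_eq
    (h : tripleCostM s (x, y, z) ≤ ENNReal.ofReal (u1 s w x + UB s y + UB s z)) :
    dM x y = shL12 s w ∧ dM x z = shL12 s w ∧ dM y z = shL23 s w ∧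
      ((shP w / w : ℝ) : ℂ) * x.1 + (w : ℂ) * (y.1 + z.1) = 0 ∧
      y.2 = -(shC w) • x.2 ∧ z.2 = -(shC w) • x.2 := by sorry

theorem pointwise_contact (h1 : dM x y = shL12 s w) (h2 : dM x z = shL12 s w)
    (h3 : dM y z = shL23 s w)
    (h4 : ((shP w / w : ℝ) : ℂ) * x.1 + (w : ℂ) * (y.1 + z.1) = 0)
    (h5 : y.2 = -(shC w) • x.2) (h6 : z.2 = -(shC w) • x.2) :
    u1 s w x + UB s y + UB s z = shG s w ∧
      tripleCostM s (x, y, z) = ENNReal.ofReal (u1 s w x + UB s y + UB s z) := by sorry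

end G1

/-! ## CG : contact geometry (complex-number algebra) -/

section CG
variable {k : ℕ} (s : ℝ) (hs : 0 < s)
include hs

/-- the triangle with apex `x` and shape `w` (root of the apex equation) has the right shape -/
theorem contact_geom (w : ℝ) (hw : 0 < w) (hw' : 2 * w ^ 2 < 1) (x : MS k) (hx : x.1 ≠ 0)
    (hroot : shF s w (‖x.1‖ ^ 2) (‖x.2‖ ^ 2) = 0) (hH : 0 ≤ shH s w) :
    dM x (bvert s w 1 x) = shL12 s w ∧ dM x (bvert s w (-1) x) = shL12 s w ∧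
      dM (bvert s w 1 x) (bvert s w (-1) x) = shL23 s w ∧
      ((shP w / w : ℝ) : ℂ) * x.1 + (w : ℂ) * ((bvert s w 1 x).1 + (bvert s w (-1) x).1) = 0 := by
  sorry

/-- rigidity: the equality conditions determine the base vertices up to order -/
theorem rigid (w : ℝ) (hw : 0 < w) (hw' : 2 * w ^ 2 < 1) (x y z : MS k) (hx : x.1 ≠ 0)
    (h12 : dM x y = dM x z) (h23 : dM y z = shL23 s w)
    (h4 : ((shP w / w : ℝ) : ℂ) * x.1 + (w : ℂ) * (y.1 + z.1) = 0)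
    (h5 : y.2 = -(shC w) • x.2) (h6 : z.2 = -(shC w) • x.2) :
    (y = bvert s w 1 x ∧ z = bvert s w (-1) x) ∨ (y = bvert s w (-1) x ∧ z = bvert s w 1 x) := by
  sorry

/-- `‖y.1‖² + 4‖y.2‖² = shb s w` for a base vertex `y` -/
theorem tau_bvert (w : ℝ) (hw : 0 < w) (hw' : 2 * w ^ 2 < 1) (x : MS k) (hx : x.1 ≠ 0)
    (hroot : shF s w (‖x.1‖ ^ 2) (‖x.2‖ ^ 2) = 0) (σ : ℝ) (hσ : σ = 1 ∨ σ = -1) :
    ‖(bvert s w σ x).1‖ ^ 2 + 4 * ‖(bvert s w σ x).2‖ ^ 2 = shb s w := by sorry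

/-- the second base vertex is the first base vertex of the rotated apex -/
theorem bvert_neg (w : ℝ) (hw : 0 < w) (hw' : 2 * w ^ 2 < 1) (x : MS k) (hx : x.1 ≠ 0) :
    ‖betaC s w (-1) ‖x.1‖ / betaC s w 1 ‖x.1‖‖ = 1 ∧
    bvert s w (-1) x = bvert s w 1 (betaC s w (-1) ‖x.1‖ / betaC s w 1 ‖x.1‖ * x.1, x.2) := by
  sorry

omit hs in
/-- rotation equivariance -/
theorem rot_equivariant (w2 : ℝ) (t : ℝ) (x : MS k) :
    wA s w2 (rotM t x) = wA s w2 x ∧ bplus s w2 (rotM t x) = rotM t (bplus s w2 x) ∧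
      omegaG s w2 (rotM t x) = omegaG s w2 x := by sorry

end CG

/-! ## RG : regularity (root functions, contact maps) -/

/-- (RG0) generic smooth-root lemma (inverse function theorem for `(w,x) ↦ (F (w,x), x)`) -/
theorem contDiffAt_root {X : Type*} [NormedAddCommGroup X] [NormedSpace ℝ X] [CompleteSpace X]
    (F : ℝ × X → ℝ) (U : Set (ℝ × X)) (hU : IsOpen U) (hF : ContDiffOn ℝ ∞ F U)
    (hinj : ∀ w w' x, (w, x) ∈ U → (w', x) ∈ U → F (w, x) = F (w', x) → w = w')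
    (hder : ∀ p ∈ U, fderiv ℝ F p (1, 0) ≠ 0)
    (r : X → ℝ) (x₀ : X) (hr : ∀ᶠ x in 𝓝 x₀, (r x, x) ∈ U ∧ F (r x, x) = 0) :
    ContDiffAt ℝ ∞ r x₀ := by sorry

section RG
variable {k : ℕ} (s w2 : ℝ) (hs : 0 < s) (hw2 : wMin s < w2) (hw2' : 2 * w2 ^ 2 < 1)
include hs hw2 hw2'

theorem isOpen_Adom : IsOpen (Adom (k := k) s w2) := by sorry

/-- (RG1) the apex shape function -/
theorem wA_spec (x : MS k) (hx : x ∈ Adom s w2) :
    wMin s < wA s w2 x ∧ wA s w2 x < w2 ∧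
      shF s (wA s w2 x) (‖x.1‖ ^ 2) (‖x.2‖ ^ 2) = 0 := by sorry

theorem wA_contDiffOn : ContDiffOn ℝ ∞ (wA (k := k) s w2) (Adom s w2) := by sorry

theorem wA_measurable : Measurable (wA (k := k) s w2) := by sorry

/-- (RG2) the inverse of `shb` -/
theorem Winv_spec (w : ℝ) (hw : wMin s < w) (hw' : w < w2) :
    Winv s w2 (shb s w) = w ∧ ContDiffAt ℝ ∞ (Winv s w2) (shb s w) := by sorry

/-- (RG3) the contact map -/
theorem bplus_measurable : Measurable (bplus (k := k) s w2) := by sorry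

theorem bplus_contDiffOn : ContDiffOn ℝ ∞ (bplus (k := k) s w2) (Adom s w2) := by sorry

theorem psiPlus_bplus (x : MS k) (hx : x ∈ Adom s w2) :
    psiPlus s w2 (bplus s w2 x) = x ∧ ContDiffAt ℝ ∞ (psiPlus (k := k) s w2) (bplus s w2 x) := by
  sorry

theorem omegaG_measurable : Measurable (omegaG (k := k) s w2) := by sorry

end RG

/-! ## DN : the apex density -/

section DN
variable {k : ℕ} (ε : ℝ) (hε : 0 < ε)
include hε

theorem rhoA_nonneg (x : MS k) : 0 ≤ rhoA ε x := by sorry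
theorem rhoA_contDiff : ContDiff ℝ ∞ (rhoA (k := k) ε) := by sorry
theorem rhoA_sqrt_contDiff : ContDiff ℝ ∞ (fun x : MS k => Real.sqrt (rhoA ε x)) := by sorry
theorem rhoA_support : Function.support (rhoA (k := k) ε) = torus ε := by sorry
theorem rhoA_hasCompactSupport : HasCompactSupport (rhoA (k := k) ε) := by sorry
theorem rhoA_tsupport :
    tsupport (rhoA (k := k) ε) ⊆ {x | (‖x.1‖ ^ 2 - 2 * ε) ^ 2 + ‖x.2‖ ^ 2 ≤ ε ^ 2} := by sorry
theorem rhoA_integral : ∫ x : MS k, rhoA ε x = 1 / 3 := by sorry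
theorem rhoA_mass : measOfDensity (rhoA (k := k) ε) univ = 1 / 3 := by sorry
theorem rhoA_rot (t : ℝ) (x : MS k) : rhoA ε (rotM t x) = rhoA ε x := by sorry

omit hε in
theorem closedTorus_subset_Adom (s w2 : ℝ) (hp : GoodParams s w2 ε) :
    {x : MS k | (‖x.1‖ ^ 2 - 2 * ε) ^ 2 + ‖x.2‖ ^ 2 ≤ ε ^ 2} ⊆ Adom s w2 := by sorry

end DN

/-! ## CV : generic change of variables for smooth densities -/

theorem cov_density {V : Type*} [NormedAddCommGroup V] [NormedSpace ℝ V] [FiniteDimensional ℝ V]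
    [MeasureSpace V] [BorelSpace V] [(volume : Measure V).IsAddHaarMeasure]
    (f ψ : V → V) (A' : Set V) (hA' : IsOpen A') (hf : Measurable f)
    (hfs : ContDiffOn ℝ ∞ f A') (hψ : ∀ x ∈ A', ContDiffAt ℝ ∞ ψ (f x))
    (hinv : ∀ x ∈ A', ψ (f x) = x)
    (ρ₁ : V → ℝ) (h0 : ∀ x, 0 ≤ ρ₁ x) (hsm : ContDiff ℝ ∞ ρ₁)
    (hsq : ContDiff ℝ ∞ (fun x => Real.sqrt (ρ₁ x))) (hcs : HasCompactSupport ρ₁)
    (hsub : tsupport ρ₁ ⊆ A') :
    ∃ ρ₂ : V → ℝ, (∀ y, 0 ≤ ρ₂ y) ∧ ContDiff ℝ ∞ ρ₂ ∧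
      ContDiff ℝ ∞ (fun y => Real.sqrt (ρ₂ y)) ∧ HasCompactSupport ρ₂ ∧
      Function.support ρ₂ ⊆ f '' (Function.support ρ₁) ∧
      (measOfDensity ρ₁).map f = measOfDensity ρ₂ := by sorry

/-! ## DI : disintegration of the apex measure along the circles -/

section DI
variable {k : ℕ} (ε : ℝ) (hε : 0 < ε)
include hε

theorem measurableSet_Ybase : MeasurableSet (Ybase k ε) := by sorry
theorem measurable_PhiA : Measurable (PhiA (k := k) ε) := by sorry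
theorem nuG_univ : nuG k ε univ = 1 / 3 := by sorry
theorem PhiA_map : (tsΛ (nuG k ε)).map (PhiA ε) = measOfDensity (rhoA (k := k) ε) := by sorry
theorem range_PhiA : range (PhiA (k := k) ε) = torus ε := by sorry
theorem PhiA_inj (b : ↥(Ybase k ε)) (t : ℝ) (b' : ↥(Ybase k ε)) (t' : ℝ) (ht : t ∈ Ico (0:ℝ) 1)
    (ht' : t' ∈ Ico (0:ℝ) 1) (h : PhiA ε (b, t) = PhiA ε (b', t')) : b = b' ∧ t = t' := by sorry

end DI

/-! ## TR : transfer between the model space and `EuclideanSpace ℝ (Fin (k+2))` -/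

theorem exists_transfer (k : ℕ) : ∃ e : EuclideanSpace ℝ (Fin (k + 2)) ≃L[ℝ] MS k,
    MeasurePreserving e volume volume ∧ ∀ x y, dM (e x) (e y) = ‖x - y‖ := by sorry

theorem twoShellHyp_transfer {E M Y : Type*} [MeasurableSpace E] [MeasurableSpace M]
    [MeasurableSpace Y] (ν : Measure Y) (ΦA ΦB : Y × ℝ → M) (g : Y → ℝ) (c : M × M × M → ℝ≥0∞)
    (u : M → ℝ) (h : TwoShellHyp ν ΦA ΦB g c u) (e : E ≃ᵐ M) (c' : E × E × E → ℝ≥0∞)
    (hc : ∀ x y z, c' (x, y, z) = c (e x, e y, e z)) :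
    TwoShellHyp ν (fun p => e.symm (ΦA p)) (fun p => e.symm (ΦB p)) g c' (fun x => u (e x)) := by
  sorry

/-! ## HY : the concrete instance satisfies the hypotheses of the two-shell theorem
(HY-a structure/measurability, HY-b potential theory, HC continuity; `geom_hyp` = assembly) -/

section HY
variable {k : ℕ} (s w2 ε : ℝ) (hp : GoodParams s w2 ε)
include hp

/-- the apexes lie in the torus, inside the domain of the contact maps -/
theorem PhiA_mem (p : ↥(Ybase k ε) × ℝ) : PhiA ε p ∈ torus ε ∧ PhiA ε p ∈ Adom s w2 := by sorry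

/-- HY-a -/
theorem geomH_measB : Measurable (PhiB (k := k) s w2 ε) := by sorry
theorem geomH_perA (b : ↥(Ybase k ε)) (t : ℝ) : PhiA ε (b, t + 1) = PhiA ε (b, t) := by sorry
theorem geomH_perB (b : ↥(Ybase k ε)) (t : ℝ) : PhiB s w2 ε (b, t + 1) = PhiB s w2 ε (b, t) := by
  sorry
theorem geomH_injB (b : ↥(Ybase k ε)) (t : ℝ) (b' : ↥(Ybase k ε)) (t' : ℝ) (ht : t ∈ Ico (0:ℝ) 1)
    (ht' : t' ∈ Ico (0:ℝ) 1) (h : PhiB s w2 ε (b, t) = PhiB s w2 ε (b', t')) : b = b' ∧ t = t' := by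
  sorry
theorem geomH_disj (p q : ↥(Ybase k ε) × ℝ) : PhiA ε p ≠ PhiB s w2 ε q := by sorry
theorem geomH_measg : Measurable (gG (k := k) s w2 ε) := by sorry
theorem geomH_measc : Measurable (tripleCostM (k := k) s) := by sorry
theorem geomH_symm12 (x y z : MS k) : tripleCostM s (y, x, z) = tripleCostM s (x, y, z) := by sorry
theorem geomH_symm23 (x y z : MS k) : tripleCostM s (x, z, y) = tripleCostM s (x, y, z) := by sorry
theorem geomH_measu : Measurable (uG (k := k) s w2 ε) := by sorry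
/-- the second base vertex -/
theorem PhiB_shift (b : ↥(Ybase k ε)) (t : ℝ) :
    PhiB s w2 ε (b, t + gG s w2 ε b) = bminus s w2 (PhiA ε (b, t)) := by sorry

/-- HY-b -/
theorem geomH_bddu : ∃ M : ℝ, ∀ p : ↥(Ybase k ε) × ℝ,
    |uG s w2 ε (PhiA ε p)| ≤ M ∧ |uG s w2 ε (PhiB s w2 ε p)| ≤ M := by sorry
theorem geomH_adm (x y z : MS k) (hx : x ∈ tsS (PhiA ε) (PhiB s w2 ε))
    (hy : y ∈ tsS (PhiA ε) (PhiB s w2 ε)) (hz : z ∈ tsS (PhiA ε) (PhiB s w2 ε)) :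
    ENNReal.ofReal (uG s w2 ε x + uG s w2 ε y + uG s w2 ε z) ≤ tripleCostM s (x, y, z) := by sorry
theorem geomH_contact (b : ↥(Ybase k ε)) (t : ℝ) :
    tripleCostM s (PhiA ε (b, t), PhiB s w2 ε (b, t), PhiB s w2 ε (b, t + gG s w2 ε b)) =
      ENNReal.ofReal (uG s w2 ε (PhiA ε (b, t)) + uG s w2 ε (PhiB s w2 ε (b, t)) +
        uG s w2 ε (PhiB s w2 ε (b, t + gG s w2 ε b))) ∧
    0 ≤ uG s w2 ε (PhiA ε (b, t)) + uG s w2 ε (PhiB s w2 ε (b, t)) +
        uG s w2 ε (PhiB s w2 ε (b, t + gG s w2 ε b)) := by sorry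
theorem geomH_rigAA (p q : ↥(Ybase k ε) × ℝ) (z : MS k) (hz : z ∈ tsS (PhiA ε) (PhiB s w2 ε)) :
    tripleCostM s (PhiA ε p, PhiA ε q, z) ≠
      ENNReal.ofReal (uG s w2 ε (PhiA ε p) + uG s w2 ε (PhiA ε q) + uG s w2 ε z) := by sorry
theorem geomH_rigBA (b : ↥(Ybase k ε)) (t : ℝ) (q : ↥(Ybase k ε) × ℝ) (z : MS k)
    (hz : z ∈ tsS (PhiA ε) (PhiB s w2 ε))
    (h : tripleCostM s (PhiB s w2 ε (b, t), PhiA ε q, z) =
      ENNReal.ofReal (uG s w2 ε (PhiB s w2 ε (b, t)) + uG s w2 ε (PhiA ε q) + uG s w2 ε z)) :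
    PhiA ε q = PhiA ε (b, t) ∨ PhiA ε q = PhiA ε (b, t - gG s w2 ε b) := by sorry

/-- HC : uniform continuity of the cost near the contact triangles -/
theorem geomH_cont (ε' : ℝ) (hε' : 0 < ε') : ∃ η : ℝ, 0 < η ∧
    ∀ (b : ↥(Ybase k ε)) (t t₁ t₂ : ℝ), |t₁ - t| ≤ η → |t₂ - (t + gG s w2 ε b)| ≤ η →
      tripleCostM s (PhiA ε (b, t), PhiB s w2 ε (b, t₁), PhiB s w2 ε (b, t₂)) ≤
        tripleCostM s (PhiA ε (b, t), PhiB s w2 ε (b, t), PhiB s w2 ε (b, t + gG s w2 ε b)) +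
          ENNReal.ofReal ε' := by sorry

/-- assembly of HY-a, HY-b, HC, DI -/
theorem geom_hyp : TwoShellHyp (nuG k ε) (PhiA ε) (PhiB s w2 ε) (gG s w2 ε) (tripleCostM s)
    (uG s w2 ε) := by sorry

/-- MS : the two-shell marginal has a smooth density (DI + CV + RG + DN) -/
theorem geom_measure : ∃ ρB : MS k → ℝ, (∀ y, 0 ≤ ρB y) ∧ ContDiff ℝ ∞ ρB ∧
    ContDiff ℝ ∞ (fun y => Real.sqrt (ρB y)) ∧ HasCompactSupport ρB ∧
    (∀ y, rhoA ε y * ρB y = 0) ∧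
    tsμ (nuG k ε) (PhiA ε) (PhiB s w2 ε) = measOfDensity (fun x => rhoA ε x + ρB x) := by sorry

end HY

end Crest.Agent.Helper32.Spec
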