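/-
Helper32 — S0175 project: STATEMENTS of the abstract two-shell theorem (TST), split into packages
TS-B (basics), TS-0 (arc maps on the circle), TS-1 .. TS-4.
(INTERFACE FILE WITH PLACEHOLDER PROOFS — never import it from a landed statement file; the proved
versions live in the package owners' modules.  Plan: notes/S0175_plan.md.)
-/
import Crest.Agent.Helper32.TwoShellDefs

set_option autoImplicit false
open MeasureTheory Set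
open scoped ENNReal
open Crest.AnalysisR.OT

namespace Crest.Agent.Helper32.Spec

/-! ## TS-0 : arc maps on the circle (1-D Lebesgue identities; no other dependency) -/

section TS0
variable (N : ℕ)

theorem measurableSet_arcT1 : MeasurableSet (arcT1 N) := by sorry
theorem measurable_arcC1 : Measurable (arcC1 N) := by sorry
theorem measurable_arcC2 : Measurable (arcC2 N) := by sorry
theorem measurable_arcD : Measurable (arcD N) := by sorry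

theorem abs_arcC1_sub_le (hN : 0 < N) (t : ℝ) : |arcC1 N t - t| ≤ 1 / N := by sorry
theorem abs_arcC2_sub_le (hN : 0 < N) (t : ℝ) : |arcC2 N t - t| ≤ 1 / N := by sorry
theorem abs_arcD_sub_le (hN : 0 < N) (t : ℝ) : |arcD N t - t| ≤ 1 / N := by sorry

variable (F : ℝ → ℝ≥0∞)

/-- rotation invariance on the circle -/
theorem arc_shift (hF : Measurable F) (hper : ∀ t, F (t + 1) = F t) (a : ℝ) :
    ∫⁻ t in Ico (0:ℝ) 1, F (t + a) = ∫⁻ t in Ico (0:ℝ) 1, F t := by sorry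

theorem arc_C1 (hN : 0 < N) (hF : Measurable F) (hper : ∀ t, F (t + 1) = F t) :
    ∫⁻ t in Ico (0:ℝ) 1, F (arcC1 N t) = 2 * ∫⁻ t in Ico (0:ℝ) 1 ∩ arcT1 N, F t := by sorry

theorem arc_C2 (hN : 0 < N) (hF : Measurable F) (hper : ∀ t, F (t + 1) = F t) :
    ∫⁻ t in Ico (0:ℝ) 1, F (arcC2 N t) = 2 * ∫⁻ t in Ico (0:ℝ) 1 \ arcT1 N, F t := by sorry

theorem arc_D1 (hN : 0 < N) (hF : Measurable F) (hper : ∀ t, F (t + 1) = F t) :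
    2 * ∫⁻ t in Ico (0:ℝ) 1 ∩ arcT1 N, F (arcD N t) = ∫⁻ t in Ico (0:ℝ) 1, F t := by sorry

theorem arc_D2 (hN : 0 < N) (hF : Measurable F) (hper : ∀ t, F (t + 1) = F t) :
    2 * ∫⁻ t in Ico (0:ℝ) 1 \ arcT1 N, F (arcD N t) = ∫⁻ t in Ico (0:ℝ) 1, F t := by sorry

/-- half-arc shift forward (plus a rotation by a multiple of `1/N`) : type 1 → type 2 -/
theorem arc_half_fwd (hN : 0 < N) (hF : Measurable F) (hper : ∀ t, F (t + 1) = F t) (j : ℤ) :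
    ∫⁻ t in Ico (0:ℝ) 1 ∩ arcT1 N, F (t + (1 / (2 * (N:ℝ)) + j / N)) =
      ∫⁻ t in Ico (0:ℝ) 1 \ arcT1 N, F t := by sorry

/-- half-arc shift backward (plus a rotation by a multiple of `1/N`) : type 2 → type 1 -/
theorem arc_half_bwd (hN : 0 < N) (hF : Measurable F) (hper : ∀ t, F (t + 1) = F t) (j : ℤ) :
    ∫⁻ t in Ico (0:ℝ) 1 \ arcT1 N, F (t + (-(1 / (2 * (N:ℝ))) + j / N)) =
      ∫⁻ t in Ico (0:ℝ) 1 ∩ arcT1 N, F t := by sorry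

end TS0

variable {E Y : Type*} [MeasurableSpace E] [StandardBorelSpace E] [MeasurableSpace Y]
  [StandardBorelSpace Y] (ν : Measure Y) [IsFiniteMeasure ν] (ΦA ΦB : Y × ℝ → E) (g : Y → ℝ)
  (c : E × E × E → ℝ≥0∞) (u : E → ℝ)

/-! ## TS-B : basics shared by TS-1 .. TS-4 -/

theorem ts_lintegral (hA : Measurable ΦA) (hB : Measurable ΦB) (f : E → ℝ≥0∞)
    (hf : Measurable f) :
    ∫⁻ x, f x ∂(tsμ ν ΦA ΦB) =
      ∫⁻ p, f (ΦA p) ∂(tsΛ ν) + 2 * ∫⁻ p, f (ΦB p) ∂(tsΛ ν) := by sorry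

theorem ts_univ (h : TwoShellHyp ν ΦA ΦB g c u) : tsμ ν ΦA ΦB univ = 1 := by sorry

theorem ts_meas_range (h : TwoShellHyp ν ΦA ΦB g c u) :
    MeasurableSet (range ΦA) ∧ MeasurableSet (range ΦB) := by sorry

theorem ts_ae_mem (h : TwoShellHyp ν ΦA ΦB g c u) :
    ∀ᵐ x ∂(tsμ ν ΦA ΦB), x ∈ tsS ΦA ΦB := by sorry

theorem ts_integrable_u (h : TwoShellHyp ν ΦA ΦB g c u) : Integrable u (tsμ ν ΦA ΦB) := by sorry

/-- measurable inverses of the two parametrisations -/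
theorem ts_inv (h : TwoShellHyp ν ΦA ΦB g c u) :
    ∃ iA iB : E → Y × ℝ, Measurable iA ∧ Measurable iB ∧
      (∀ b t, t ∈ Ico (0:ℝ) 1 → iA (ΦA (b, t)) = (b, t)) ∧
      (∀ b t, t ∈ Ico (0:ℝ) 1 → iB (ΦB (b, t)) = (b, t)) := by sorry

/-- fibrewise rotation invariance of `tsΛ` -/
theorem ts_rot (F : Y × ℝ → ℝ≥0∞) (hF : Measurable F) (hper : ∀ b t, F (b, t + 1) = F (b, t))
    (a : Y → ℝ) (ha : Measurable a) :
    ∫⁻ p, F (p.1, p.2 + a p.1) ∂(tsΛ ν) = ∫⁻ p, F p ∂(tsΛ ν) := by sorry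

/-! ## TS-1 .. TS-4 -/

/-- (TS-1) weak duality: every coupling costs at least `tsVal`. -/
theorem ts_lower (h : TwoShellHyp ν ΦA ΦB g c u) (π : Measure (E × E × E))
    (hπ : IsCoupling₃ (tsμ ν ΦA ΦB) π) : tsVal ν ΦA ΦB u ≤ ∫⁻ p, c p ∂π := by
  sorry

/-- (TS-2) the symmetrised triangle plan is a coupling with cost exactly `tsVal`. -/
theorem ts_plan (h : TwoShellHyp ν ΦA ΦB g c u) :
    ∃ π₀ : Measure (E × E × E), IsCoupling₃ (tsμ ν ΦA ΦB) π₀ ∧ ∫⁻ p, c p ∂π₀ = tsVal ν ΦA ΦB u := by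
  sorry

/-- (TS-3) no Monge pair attains `tsVal` (density-doubling / parity argument). -/
theorem ts_strict (h : TwoShellHyp ν ΦA ΦB g c u) (T₂ T₃ : E → E) (h₂ : Measurable T₂)
    (h₃ : Measurable T₃) (hT₂ : (tsμ ν ΦA ΦB).map T₂ = tsμ ν ΦA ΦB)
    (hT₃ : (tsμ ν ΦA ΦB).map T₃ = tsμ ν ΦA ΦB) :
    tsVal ν ΦA ΦB u < ∫⁻ x, c (x, T₂ x, T₃ x) ∂(tsμ ν ΦA ΦB) := by
  sorry

/-- (TS-4) Monge pairs approach `tsVal` (angle compress/stretch on `N` arcs). -/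
theorem ts_approx (h : TwoShellHyp ν ΦA ΦB g c u) (ε : ℝ) (hε : 0 < ε) :
    ∃ T₂ T₃ : E → E, Measurable T₂ ∧ Measurable T₃ ∧
      (tsμ ν ΦA ΦB).map T₂ = tsμ ν ΦA ΦB ∧ (tsμ ν ΦA ΦB).map T₃ = tsμ ν ΦA ΦB ∧
      ∫⁻ x, c (x, T₂ x, T₃ x) ∂(tsμ ν ΦA ΦB) ≤ tsVal ν ΦA ΦB u + ENNReal.ofReal ε := by
  sorry

/-- The abstract two-shell theorem (assembled from TS-1..4). -/
theorem twoShell (h : TwoShellHyp ν ΦA ΦB g c u) :
    ∃ π₀ : Measure (E × E × E),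
      IsCoupling₃ (tsμ ν ΦA ΦB) π₀ ∧ ∫⁻ p, c p ∂π₀ < ⊤ ∧
      (∀ π : Measure (E × E × E), IsCoupling₃ (tsμ ν ΦA ΦB) π →
        ∫⁻ p, c p ∂π₀ ≤ ∫⁻ p, c p ∂π) ∧
      (∀ T₂ T₃ : E → E, Measurable T₂ → Measurable T₃ →
        (tsμ ν ΦA ΦB).map T₂ = tsμ ν ΦA ΦB → (tsμ ν ΦA ΦB).map T₃ = tsμ ν ΦA ΦB →
        ∫⁻ p, c p ∂π₀ < ∫⁻ x, c (x, T₂ x, T₃ x) ∂(tsμ ν ΦA ΦB)) ∧
      (∀ ε : ℝ≥0∞, 0 < ε → ∃ T₂ T₃ : E → E, Measurable T₂ ∧ Measurable T₃ ∧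
        (tsμ ν ΦA ΦB).map T₂ = tsμ ν ΦA ΦB ∧ (tsμ ν ΦA ΦB).map T₃ = tsμ ν ΦA ΦB ∧
        ∫⁻ x, c (x, T₂ x, T₃ x) ∂(tsμ ν ΦA ΦB) < ∫⁻ p, c p ∂π₀ + ε) := by
  obtain ⟨π₀, hπ₀, hval⟩ := ts_plan ν ΦA ΦB g c u h
  refine ⟨π₀, hπ₀, ?_, ?_, ?_, ?_⟩
  · rw [hval]; exact ENNReal.ofReal_lt_top
  · intro π hπ; rw [hval]; exact ts_lower ν ΦA ΦB g c u h π hπ
  · intro T₂ T₃ h₂ h₃ hT₂ hT₃; rw [hval]; exact ts_strict ν ΦA ΦB g c u h T₂ T₃ h₂ h₃ hT₂ hT₃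
  · intro ε hε
    rw [hval]
    by_cases hε' : ε = ⊤
    · obtain ⟨T₂, T₃, h₂, h₃, hT₂, hT₃, hle⟩ := ts_approx ν ΦA ΦB g c u h 1 one_pos
      refine ⟨T₂, T₃, h₂, h₃, hT₂, hT₃, ?_⟩
      rw [hε']
      have hfin : tsVal ν ΦA ΦB u + ENNReal.ofReal 1 < ⊤ :=
        ENNReal.add_lt_top.2 ⟨ENNReal.ofReal_lt_top, ENNReal.ofReal_lt_top⟩
      calc _ ≤ tsVal ν ΦA ΦB u + ENNReal.ofReal 1 := hle
        _ < ⊤ := hfin
        _ = tsVal ν ΦA ΦB u + ⊤ := by simp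
    · have hpos : 0 < ε.toReal / 2 := by
        have := ENNReal.toReal_pos hε.ne' hε'
        linarith
      obtain ⟨T₂, T₃, h₂, h₃, hT₂, hT₃, hle⟩ := ts_approx ν ΦA ΦB g c u h (ε.toReal / 2) hpos
      refine ⟨T₂, T₃, h₂, h₃, hT₂, hT₃, lt_of_le_of_lt hle ?_⟩
      have hfin : tsVal ν ΦA ΦB u ≠ ⊤ := ENNReal.ofReal_ne_top
      refine (ENNReal.add_lt_add_iff_left hfin).2 ?_
      calc ENNReal.ofReal (ε.toReal / 2) < ENNReal.ofReal ε.toReal := by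
            apply (ENNReal.ofReal_lt_ofReal_iff (by linarith)).2; linarith
        _ = ε := ENNReal.ofReal_toReal hε'

end Crest.Agent.Helper32.Spec
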